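import Vale.Agent.H12.P113.Main

set_option autoImplicit false

namespace Vale.Agent.Results.P113.ForceCompiler

open Set Vale.Agent.H12.P113

/-- Q1 holds: for every viscosity `ν > 0` there are a point `a` of the torus, an open set `O` of
the torus and a force compiler such that for every machine `M` and every input `w` the forced
Navier-Stokes system started from rest has a global smooth solution, unique among classical
solutions on each `[0, T]`, whose trajectory from `a` lies in `O` at some real time `t ≥ 0` if and
only if `M` halts on `w`. -/
theorem result :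
    ∀ ν : ℝ, 0 < ν →
      ∃ (a : Torus3) (O : Set Torus3) (compile : Machine × List ℕ → Nat.Partrec.Code)
        (f : Machine → List ℕ → ℝ → E3 → E3),
        IsOpen O ∧ IsForceCompiler compile f ∧
        ∀ (M : Machine) (w : List ℕ), ∃ (u : ℝ → E3 → E3) (p : ℝ → E3 → ℝ),
          IsGlobalSmoothSolution ν (f M w) u p ∧
          (∀ T > 0, ∀ v q, IsClassicalSolution ν (f M w) T v q →
            ∀ t ∈ Icc 0 T, v t = u t ∧ q t = p t) ∧
          (∃ X, IsTrajectory u a X) ∧
          ∀ X, IsTrajectory u a X → ((∃ t, 0 ≤ t ∧ toTorus (X t) ∈ O) ↔ Halts M w) :=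
  main

end Vale.Agent.Results.P113.ForceCompiler
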